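import Mathlib

namespace Vale.Agent.P181

open MvPolynomial Finset

set_option linter.unusedSectionVars false

variable {K : Type*} [Field K] [CharZero K] {a : ℕ} {κ : Type*} [Fintype κ] [DecidableEq κ]

abbrev Pol (K : Type*) [CommSemiring K] (a : ℕ) (κ : Type*) :=
  MvPolynomial (Option (Fin a) × κ) K

/-- Linear form in the variables of a slot. -/
noncomputable def lin (o : Option (Fin a)) : (κ → K) →ₗ[K] Pol K a κ :=
  ∑ j, (LinearMap.proj j).smulRight (X (o, j))

theorem lin_apply (o : Option (Fin a)) (c : κ → K) :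
    lin o c = ∑ j, c j • (X (o, j) : Pol K a κ) := by
  simp [lin]

theorem lin_single (o : Option (Fin a)) (j : κ) :
    lin o (Pi.single j 1) = (X (o, j) : Pol K a κ) := by
  rw [lin_apply, Finset.sum_eq_single j] <;> simp +contextual

/-- Degree of a monomial in a slot. -/
def sdeg (d : Option (Fin a) × κ →₀ ℕ) (o : Option (Fin a)) : ℕ := ∑ j, d (o, j)

/-- Polynomials with prescribed slot degrees. -/
noncomputable def Tm (K : Type*) [Field K] (δ : Option (Fin a) → ℕ) : Submodule K (Pol K a κ) :=
  Submodule.span K ((fun d => monomial d (1 : K)) '' {d | ∀ o, sdeg d o = δ o})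

theorem mono_mem {δ : Option (Fin a) → ℕ} {d : Option (Fin a) × κ →₀ ℕ}
    (h : ∀ o, sdeg d o = δ o) (r : K) : monomial d r ∈ (Tm K δ : Submodule K (Pol K a κ)) := by
  have h1 : monomial d r = r • monomial d (1 : K) := by simp [smul_monomial]
  rw [h1]
  exact Submodule.smul_mem _ _ (Submodule.subset_span ⟨d, h, rfl⟩)

/-- Replace the slot `p` by the slot `q`, as a derivation. -/
noncomputable def shiftD (p q : Option (Fin a)) :
    Derivation K (Pol K a κ) (Pol K a κ) :=
  mkDerivation K fun s => if s.1 = p then X (q, s.2) else 0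

theorem shiftD_X (p q o : Option (Fin a)) (j : κ) :
    shiftD (K := K) p q (X (o, j)) = if o = p then X (q, j) else 0 := by
  simp [shiftD]

theorem shiftD_lin (p q o : Option (Fin a)) (c : κ → K) :
    shiftD (K := K) p q (lin o c) = if o = p then lin q c else 0 := by
  simp only [lin_apply, map_sum, Derivation.map_smul, shiftD_X]
  split_ifs <;> simp

theorem shiftD_mem {p q : Option (Fin a)} {δ δ' : Option (Fin a) → ℕ}
    (hsh : ∀ o, δ' o + (if o = p then 1 else 0) = δ o + (if o = q then 1 else 0))
    {P : Pol K a κ} (hP : P ∈ Tm K δ) : (shiftD p q : Derivation K (Pol K a κ) (Pol K a κ)) P ∈ Tm K δ' := by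
  induction hP using Submodule.span_induction with
  | mem x hx =>
    obtain ⟨d, hd, rfl⟩ := hx
    simp only [shiftD, mkDerivation_monomial, one_smul, Finsupp.sum]
    refine Submodule.sum_mem _ fun s hs => ?_
    by_cases h : s.1 = p
    · simp only [if_pos h, X, smul_eq_mul, monomial_mul]
      apply mono_mem
      intro o
      have e : d - Finsupp.single s 1 + Finsupp.single s 1 = d :=
        tsub_add_cancel_of_le (by
          rw [Finsupp.single_le_iff]
          exact Nat.one_le_iff_ne_zero.mpr (Finsupp.mem_support_iff.mp hs))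
      have h1 : ∀ (t : Option (Fin a) × κ), sdeg (Finsupp.single t 1) o
          = if o = t.1 then 1 else 0 := by
        rintro ⟨t, k⟩
        unfold sdeg
        by_cases ht : o = t
        · subst ht; simp [Finsupp.single_apply]
        · simp [ht]
      have hadd : ∀ d1 d2 : Option (Fin a) × κ →₀ ℕ,
          sdeg (d1 + d2) o = sdeg d1 o + sdeg d2 o := fun d1 d2 => by
        simp [sdeg, Finset.sum_add_distrib]
      have h2 := congrArg (fun x => sdeg x o) e
      simp only [hadd, h1] at h2
      rw [hadd, h1, h] at *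
      have := hsh o
      have := hd o
      simp only at *
      omega
    · simp [if_neg h]
  | zero => simp
  | add x y _ _ hx hy =>
    rw [map_add]; exact add_mem hx hy
  | smul r x _ hx =>
    rw [Derivation.map_smul]; exact Submodule.smul_mem _ r hx

theorem shiftD_eq_zero {p q : Option (Fin a)} {δ : Option (Fin a) → ℕ}
    (h0 : δ p = 0) {P : Pol K a κ} (hP : P ∈ Tm K δ) : (shiftD p q : Derivation K (Pol K a κ) (Pol K a κ)) P = 0 := by
  induction hP using Submodule.span_induction with
  | mem x hx =>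
    obtain ⟨d, hd, rfl⟩ := hx
    simp only [shiftD, mkDerivation_monomial, one_smul, Finsupp.sum]
    refine Finset.sum_eq_zero fun s hs => ?_
    by_cases h : s.1 = p
    · exfalso
      have h1 : d s ≤ sdeg d s.1 :=
        Finset.single_le_sum (f := fun j => d (s.1, j)) (fun j _ => Nat.zero_le _) (mem_univ s.2)
      rw [hd, h, h0] at h1
      exact Finsupp.mem_support_iff.mp hs (Nat.le_zero.mp h1)
    · simp [if_neg h]
  | zero => simp
  | add x y _ _ hx hy =>
    rw [map_add, hx, hy, add_zero]
  | smul r x _ hx =>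
    rw [Derivation.map_smul, hx, smul_zero]

theorem comm_rel {p q : Option (Fin a)} (hpq : p ≠ q) {δ : Option (Fin a) → ℕ}
    {P : Pol K a κ} (hP : P ∈ Tm K δ) :
    (shiftD p q : Derivation K (Pol K a κ) (Pol K a κ)) (shiftD q p P)
        - (shiftD q p : Derivation K (Pol K a κ) (Pol K a κ)) (shiftD p q P)
      = ((δ q : K) - (δ p : K)) • P := by
  set w : Option (Fin a) → K := fun o => (if o = q then 1 else 0) - (if o = p then 1 else 0)
  have hH : ⁅(shiftD p q : Derivation K (Pol K a κ) (Pol K a κ)),
      (shiftD q p : Derivation K (Pol K a κ) (Pol K a κ))⁆ =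
      mkDerivation K (fun s => w s.1 • X s) := by
    refine derivation_ext fun s => ?_
    obtain ⟨o, j⟩ := s
    rw [Derivation.commutator_apply, mkDerivation_X]
    rcases eq_or_ne o q with h | h
    · subst h
      simp [shiftD_X, w, hpq.symm]
    · rcases eq_or_ne o p with h' | h'
      · subst h'
        simp [shiftD_X, w, h]
      · simp [shiftD_X, w, h, h']
  rw [← Derivation.commutator_apply, hH]
  induction hP using Submodule.span_induction with
  | mem x hx =>
    obtain ⟨d, hd, rfl⟩ := hx
    simp only [mkDerivation_monomial, one_smul]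
    have h1 : ∀ s ∈ d.support,
        monomial (d - Finsupp.single s 1) (d s : K) • (w s.1 • X s : Pol K a κ)
          = ((d s : K) * w s.1) • monomial d (1 : K) := by
      intro s hs
      have e : d - Finsupp.single s 1 + Finsupp.single s 1 = d :=
        tsub_add_cancel_of_le (by
          rw [Finsupp.single_le_iff]
          exact Nat.one_le_iff_ne_zero.mpr (Finsupp.mem_support_iff.mp hs))
      simp only [smul_eq_mul, X, monomial_mul, e, smul_monomial]
      congr 1
      ring
    rw [Finsupp.sum, Finset.sum_congr rfl h1, ← Finset.sum_smul]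
    congr 1
    rw [Finset.sum_subset (subset_univ _) (fun s _ hs => by
      simp [Finsupp.notMem_support_iff.mp hs]), Fintype.sum_prod_type]
    simp only [w, mul_sub, mul_ite, mul_one, mul_zero, Finset.sum_sub_distrib]
    rw [← hd q, ← hd p, sdeg, sdeg]
    push_cast
    congr 1 <;> rw [Finset.sum_comm] <;> simp
  | zero => simp
  | add x y _ _ hx hy =>
    rw [map_add, hx, hy, smul_add]
  | smul r x _ hx =>
    rw [Derivation.map_smul, hx, smul_comm]

/-- Slot degrees with slots `i` and `none` replaced. -/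
def upd (δ : Option (Fin a) → ℕ) (i : Fin a) (c j : ℕ) : Option (Fin a) → ℕ :=
  Function.update (Function.update δ (some i) c) none j

@[simp] theorem upd_none (δ : Option (Fin a) → ℕ) (i : Fin a) (c j : ℕ) :
    upd δ i c j none = j := by simp [upd]

@[simp] theorem upd_self (δ : Option (Fin a) → ℕ) (i : Fin a) (c j : ℕ) :
    upd δ i c j (some i) = c := by simp [upd]

@[simp] theorem upd_upd (δ : Option (Fin a) → ℕ) (i : Fin a) (c j c' j' : ℕ) :
    upd (upd δ i c j) i c' j' = upd δ i c' j' := by
  funext o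
  rcases o with _ | k
  · simp [upd]
  · rcases eq_or_ne k i with h | h <;> simp [upd, h]

theorem upd_id (δ : Option (Fin a) → ℕ) (i : Fin a) :
    upd δ i (δ (some i)) (δ none) = δ := by
  funext o
  rcases o with _ | k <;> simp +contextual [upd]

noncomputable abbrev Eup (i : Fin a) : Derivation K (Pol K a κ) (Pol K a κ) :=
  shiftD none (some i)

noncomputable abbrev Fdn (i : Fin a) : Derivation K (Pol K a κ) (Pol K a κ) :=
  shiftD (some i) none

theorem Eup_mem (i : Fin a) {δ : Option (Fin a) → ℕ} {c j : ℕ} {P : Pol K a κ}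
    (hP : P ∈ Tm K (upd δ i c (j + 1))) : Eup i P ∈ Tm K (upd δ i (c + 1) j) := by
  refine shiftD_mem (fun o => ?_) hP
  rcases o with _ | k
  · simp
  · rcases eq_or_ne k i with h | h <;> simp [upd, h]

theorem Fdn_mem (i : Fin a) {δ : Option (Fin a) → ℕ} {c j : ℕ} {P : Pol K a κ}
    (hP : P ∈ Tm K (upd δ i (c + 1) j)) : Fdn i P ∈ Tm K (upd δ i c (j + 1)) := by
  refine shiftD_mem (fun o => ?_) hP
  rcases o with _ | k
  · simp
  · rcases eq_or_ne k i with h | h <;> simp [upd, h]

theorem Eup_iter_mem (i : Fin a) {δ : Option (Fin a) → ℕ} (r : ℕ) :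
    ∀ {c j : ℕ} {P : Pol K a κ}, P ∈ Tm K (upd δ i c (j + r)) →
      (Eup i : Pol K a κ → Pol K a κ)^[r] P ∈ Tm K (upd δ i (c + r) j) := by
  induction r with
  | zero => simp
  | succ r ih =>
    intro c j P hP
    rw [Function.iterate_succ_apply]
    have := ih (c := c + 1) (j := j) (Eup_mem i (j := j + r) hP)
    rwa [Nat.add_right_comm, Nat.add_assoc] at this

theorem Fdn_iter_mem (i : Fin a) {δ : Option (Fin a) → ℕ} (r : ℕ) :
    ∀ {c j : ℕ} {P : Pol K a κ}, P ∈ Tm K (upd δ i (c + r) j) →
      (Fdn i : Pol K a κ → Pol K a κ)^[r] P ∈ Tm K (upd δ i c (j + r)) := by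
  induction r with
  | zero => simp
  | succ r ih =>
    intro c j P hP
    rw [Function.iterate_succ_apply]
    have := ih (c := c) (j := j + 1) (Fdn_mem i (c := c + r) hP)
    rwa [Nat.add_right_comm j 1 r, Nat.add_assoc] at this

theorem iter_smul (D : Derivation K (Pol K a κ) (Pol K a κ)) (r : ℕ) (k : K) (P : Pol K a κ) :
    (D : Pol K a κ → Pol K a κ)^[r] (k • P) = k • (D : Pol K a κ → Pol K a κ)^[r] P := by
  induction r generalizing P with
  | zero => simp
  | succ r ih => simp only [Function.iterate_succ_apply, Derivation.map_smul, ih]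

theorem iter_sub (D : Derivation K (Pol K a κ) (Pol K a κ)) (r : ℕ) (P Q : Pol K a κ) :
    (D : Pol K a κ → Pol K a κ)^[r] (P - Q) = (D : Pol K a κ → Pol K a κ)^[r] P - (D : Pol K a κ → Pol K a κ)^[r] Q := by
  induction r generalizing P Q with
  | zero => simp
  | succ r ih => simp only [Function.iterate_succ_apply, map_sub, ih]

theorem highest_step (i : Fin a) {δ : Option (Fin a) → ℕ} {c j : ℕ} {P : Pol K a κ}
    (hP : P ∈ Tm K (upd δ i c j)) (h0 : Eup i P = 0) :
    ∀ r, r + 1 ≤ c → Eup i ((Fdn i : Pol K a κ → Pol K a κ)^[r + 1] P)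
      = (((r : K) + 1) * ((c : K) - j - r)) • (Fdn i : Pol K a κ → Pol K a κ)^[r] P := by
  intro r
  induction r with
  | zero =>
    intro hr
    have h := comm_rel (p := none) (q := some i) (by simp) hP
    simp only [upd_none, upd_self] at h
    simp only [Function.iterate_succ_apply, Function.iterate_zero_apply]
    rw [show shiftD none (some i) P = 0 from h0, map_zero, sub_zero] at h
    rw [Eup, Fdn, h]
    simp
  | succ r ih =>
    intro hr
    have hm : (Fdn i : Pol K a κ → Pol K a κ)^[r + 1] P ∈ Tm K (upd δ i (c - (r + 1)) (j + (r + 1))) :=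
      Fdn_iter_mem i (r + 1) (by rwa [Nat.sub_add_cancel (by omega)])
    have h := comm_rel (p := none) (q := some i) (by simp) hm
    simp only [upd_none, upd_self] at h
    rw [sub_eq_iff_eq_add] at h
    rw [Function.iterate_succ_apply' (n := r + 1)]
    rw [Eup, Fdn] at *
    rw [h, ih (by omega), Derivation.map_smul,
      ← Function.iterate_succ_apply' (f := (shiftD (some i) none : Pol K a κ → Pol K a κ)) (n := r), ← add_smul]
    congr 1
    rw [Nat.cast_sub (by omega : r + 1 ≤ c)]
    push_cast
    ring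

/-- The composite raising operator is surjective in the range `D + j ≤ c`. -/
theorem exists_raise (i : Fin a) : ∀ (j D c : ℕ) (δ : Option (Fin a) → ℕ) (P : Pol K a κ),
    P ∈ Tm K (upd δ i c j) → D + j ≤ c →
      ∃ Q ∈ Tm K (upd δ i (c - D) (j + D)), (Eup i : Pol K a κ → Pol K a κ)^[D] Q = P := by
  have key : ∀ (j D c : ℕ) (δ : Option (Fin a) → ℕ) (P : Pol K a κ),
      P ∈ Tm K (upd δ i c j) → Eup i P = 0 → D + j ≤ c →
      ∃ Q ∈ Tm K (upd δ i (c - D) (j + D)), (Eup i : Pol K a κ → Pol K a κ)^[D] Q = P := by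
    intro j D c δ P hP h0 hc
    have main : ∀ r ≤ D, ∃ k : K, k ≠ 0 ∧
        (Eup i : Pol K a κ → Pol K a κ)^[r] ((Fdn i : Pol K a κ → Pol K a κ)^[r] P) = k • P := by
      intro r
      induction r with
      | zero => exact fun _ => ⟨1, one_ne_zero, by simp⟩
      | succ r ih =>
        intro hr
        obtain ⟨k, hk, hkP⟩ := ih (by omega)
        refine ⟨(((r : K) + 1) * ((c : K) - j - r)) * k, mul_ne_zero (mul_ne_zero ?_ ?_) hk, ?_⟩
        · exact_mod_cast Nat.succ_ne_zero r
        · rw [sub_sub, sub_ne_zero, ← Nat.cast_add, Ne, Nat.cast_inj]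
          omega
        · rw [Function.iterate_succ_apply, highest_step i hP h0 r (by omega), iter_smul, hkP,
            smul_smul]
    obtain ⟨k, hk, hkP⟩ := main D le_rfl
    refine ⟨k⁻¹ • (Fdn i : Pol K a κ → Pol K a κ)^[D] P, Submodule.smul_mem _ _ (Fdn_iter_mem i D ?_), ?_⟩
    · rwa [Nat.sub_add_cancel (by omega)]
    · rw [iter_smul, hkP, smul_smul, inv_mul_cancel₀ hk, one_smul]
  intro j
  induction j with
  | zero =>
    intro D c δ P hP hc
    exact key 0 D c δ P hP (shiftD_eq_zero (by simp) hP) hc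
  | succ j ih =>
    intro D c δ P hP hc
    obtain ⟨Q', hQ', hE⟩ := ih (D + 1) (c + 1) δ (Eup i P) (Eup_mem i hP) (by omega)
    have e1 : c + 1 - (D + 1) = c - D := by omega
    have e2 : j + (D + 1) = j + 1 + D := by omega
    rw [e1, e2] at hQ'
    have hEQ : (Eup i : Pol K a κ → Pol K a κ)^[D] Q' ∈ Tm K (upd δ i c (j + 1)) := by
      have := Eup_iter_mem i D hQ'
      rwa [Nat.sub_add_cancel (by omega)] at this
    obtain ⟨Q, hQ, hQP⟩ := key (j + 1) D c δ (P - (Eup i : Pol K a κ → Pol K a κ)^[D] Q')
      (sub_mem hP hEQ) (by rw [map_sub, ← Function.iterate_succ_apply' (f := (Eup i : Pol K a κ → Pol K a κ)) (n := D), hE, sub_self]) hc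
    refine ⟨Q' + Q, add_mem hQ' hQ, ?_⟩
    have h := iter_sub (Eup i) D (Q' + Q) Q'
    rw [add_sub_cancel_left, hQP] at h
    exact (sub_left_inj.mp h).symm

end Vale.Agent.P181
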