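import Mathlib
import Vale.Agent.P181.Raise

namespace Vale.Agent.P181

open MvPolynomial Finset

set_option linter.unusedSectionVars false

variable {K : Type*} [Field K] [CharZero K]

theorem coeff_mem_of_eval {V : Type*} [AddCommGroup V] [Module K V] (S : Submodule K V)
    (N : ℕ) (v : ℕ → V) (h : ∀ t : K, ∑ r ∈ range N, t ^ r • v r ∈ S) :
    ∀ r < N, v r ∈ S := by
  intro r hr
  rw [← Submodule.Quotient.mk_eq_zero, ← Module.forall_dual_apply_eq_zero_iff K]
  intro φ
  have hp : (∑ s ∈ range N, Polynomial.monomial s (φ (Submodule.Quotient.mk (v s)))) = 0 := by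
    apply Polynomial.funext
    intro t
    have h1 := congrArg φ ((Submodule.Quotient.mk_eq_zero S).mpr (h t))
    simp only [← Submodule.mkQ_apply, map_sum, map_smul, map_zero, smul_eq_mul] at h1
    simp only [Polynomial.eval_finsetSum, Polynomial.eval_monomial, Polynomial.eval_zero]
    simpa [mul_comm] using h1
  have := congrArg (fun p => Polynomial.coeff p r) hp
  simpa [Polynomial.coeff_monomial, hr] using this

theorem range_pow_le {A : Type*} [CommRing A] [Algebra K A] {W : Type*} [AddCommGroup W]
    [Module K W] (ℓ : W →ₗ[K] A) (n : ℕ) :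
    (LinearMap.range ℓ) ^ n ≤ Submodule.span K (Set.range fun c => ℓ c ^ n) := by
  induction n with
  | zero =>
    rw [pow_zero, Submodule.one_eq_span]
    exact Submodule.span_mono (by rintro _ rfl; exact ⟨0, by simp⟩)
  | succ n ih =>
    rw [pow_succ, Submodule.mul_le]
    rintro x hx _ ⟨v, rfl⟩
    have hx' := ih hx
    clear hx
    induction hx' using Submodule.span_induction with
    | mem x hx =>
      obtain ⟨u, rfl⟩ := hx
      have h := coeff_mem_of_eval (Submodule.span K (Set.range fun c => ℓ c ^ (n + 1))) (n + 2)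
        (fun r => (((n + 1).choose r : ℕ) : K) • (ℓ v ^ r * ℓ u ^ (n + 1 - r))) (fun t => ?_) 1
        (by omega)
      · simp only [pow_one, Nat.choose_one_right, Nat.add_sub_cancel] at h
        rw [Submodule.smul_mem_iff _ (by exact_mod_cast Nat.succ_ne_zero n), mul_comm] at h
        exact h
      · refine Submodule.subset_span ⟨t • v + u, ?_⟩
        simp only [map_add, map_smul, add_pow]
        refine Finset.sum_congr rfl fun r _ => ?_
        simp only [Algebra.smul_def, map_natCast, map_pow, mul_pow]
        ring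
    | zero => simp
    | add x y _ _ hx hy => rw [add_mul]; exact add_mem hx hy
    | smul r x _ hx => rw [smul_mul_assoc]; exact Submodule.smul_mem _ _ hx

theorem deriv_pow_mul {A : Type*} [CommRing A] [Algebra K A] (D : Derivation K A A)
    {g x y : A} (hg : D g = 0) (hx : D x = y) (hy : D y = 0) (n : ℕ) :
    ∀ r, ∃ k : K, (D : A → A)^[r] (g * x ^ (n + r)) = k • (g * y ^ r * x ^ n) := by
  intro r
  induction r generalizing n with
  | zero => exact ⟨1, by simp⟩
  | succ r ih =>
    obtain ⟨k, hk⟩ := ih (n + 1)
    refine ⟨k * (n + 1 : K), ?_⟩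
    rw [Function.iterate_succ_apply', show n + (r + 1) = n + 1 + r by omega, hk,
      Derivation.map_smul]
    simp only [Derivation.leibniz, Derivation.leibniz_pow, hg, hx, hy,
      smul_eq_mul, nsmul_eq_mul, Nat.add_sub_cancel]
    simp only [Algebra.smul_def, map_mul, map_add, map_natCast, map_one]
    push_cast
    ring

variable {a : ℕ} {κ : Type*} [Fintype κ] [DecidableEq κ]

theorem sdeg_add (d e : Option (Fin a) × κ →₀ ℕ) (o : Option (Fin a)) :
    sdeg (d + e) o = sdeg d o + sdeg e o := by
  simp [sdeg, Finset.sum_add_distrib]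

theorem Tm_mul {δ ε : Option (Fin a) → ℕ} {x y : Pol K a κ} (hx : x ∈ Tm K δ)
    (hy : y ∈ Tm K ε) : x * y ∈ Tm K (δ + ε) := by
  have h := Submodule.mul_mem_mul hx hy
  rw [Tm, Tm, Submodule.span_mul_span] at h
  refine Submodule.span_mono ?_ h
  rintro _ ⟨_, ⟨d, hd, rfl⟩, _, ⟨e, he, rfl⟩, rfl⟩
  exact ⟨d + e, fun o => by rw [sdeg_add, hd o, he o]; rfl, by simp [monomial_mul]⟩

theorem lin_mem (o : Option (Fin a)) (c : κ → K) :
    (lin o c : Pol K a κ) ∈ Tm K (Pi.single o 1) := by
  rw [lin_apply]
  refine Submodule.sum_mem _ fun j _ => Submodule.smul_mem _ _ (mono_mem (fun o' => ?_) 1)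
  unfold sdeg
  by_cases h : o' = o
  · subst h; simp [Finsupp.single_apply]
  · simp [h]

theorem prod_lin_mem (o : Option (Fin a)) (g : Multiset (κ → K)) :
    ((g.map (lin o)).prod : Pol K a κ) ∈ Tm K (Pi.single o (Multiset.card g)) := by
  induction g using Multiset.induction_on with
  | empty =>
    simp only [Multiset.map_zero, Multiset.prod_zero, Multiset.card_zero, Pi.single_zero]
    exact mono_mem (d := 0) (fun o => by simp [sdeg]) 1
  | cons c g ih =>
    rw [Multiset.map_cons, Multiset.prod_cons, Multiset.card_cons, add_comm, Pi.single_add]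
    exact Tm_mul (lin_mem o c) ih

/-- Generator: a product of linear forms in each slot. -/
noncomputable def tens (g : Fin a → Multiset (κ → K)) : Pol K a κ :=
  ∏ i, ((g i).map (lin (some i))).prod

/-- Span of the generators of slot degrees `k`. -/
noncomputable def Tslot (K : Type*) [Field K] (a : ℕ) (κ : Type*) [Fintype κ] (k : Fin a → ℕ) :
    Submodule K (Pol K a κ) :=
  Submodule.span K (tens '' {g | ∀ i, Multiset.card (g i) = k i})

theorem tens_mem {g : Fin a → Multiset (κ → K)} {k : Fin a → ℕ}
    (h : ∀ i, Multiset.card (g i) = k i) : tens g ∈ Tslot K a κ k :=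
  Submodule.subset_span ⟨g, h, rfl⟩

theorem tens_mem_Tm {g : Fin a → Multiset (κ → K)} {k : Fin a → ℕ}
    (h : ∀ i, Multiset.card (g i) = k i) : tens g ∈ Tm K (fun o => o.elim 0 k) := by
  have key : ∀ s : Finset (Fin a), (∏ i ∈ s, ((g i).map (lin (some i))).prod : Pol K a κ) ∈
      Tm K (∑ i ∈ s, Pi.single (some i) (k i)) := by
    intro s
    induction s using Finset.induction_on with
    | empty =>
      simp only [Finset.prod_empty, Finset.sum_empty]
      exact mono_mem (d := 0) (fun o => by simp [sdeg]) 1
    | insert i s hi ih =>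
      rw [Finset.prod_insert hi, Finset.sum_insert hi]
      refine Tm_mul ?_ ih
      have := prod_lin_mem (some i) (g i)
      rwa [h i] at this
  have h2 : (∑ i : Fin a, Pi.single (some i) (k i) : Option (Fin a) → ℕ)
      = fun o => o.elim 0 k := by
    funext o
    rcases o with _ | l <;> simp [Finset.sum_apply, Pi.single_apply]
  have := key univ
  rwa [h2] at this

theorem tens_killed {g : Fin a → Multiset (κ → K)} (i : Fin a) : Eup i (tens g) = 0 := by
  refine Finset.prod_induction _ (fun x => Eup i x = 0) ?_ (Derivation.map_one_eq_zero _) ?_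
  · intro x y hx hy
    simp [hx, hy]
  · intro k _
    induction g k using Multiset.induction_on with
    | empty => simp
    | cons c s ih => simp [ih, shiftD_lin]

/-- The products of one linear form over all slots. -/
noncomputable def Ez (c : κ → K) : Pol K a κ := ∏ i, lin (some i) c

/-- Sum of the exponents of the first `m` slots. -/
def pre (D : Fin a → ℕ) (m : ℕ) : ℕ := ∑ i ∈ univ.filter (fun i : Fin a => (i : ℕ) < m), D i

theorem filter_succ {m : ℕ} (hm : m < a) :
    univ.filter (fun l : Fin a => (l : ℕ) < m + 1)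
      = insert ⟨m, hm⟩ (univ.filter (fun l : Fin a => (l : ℕ) < m)) := by
  ext l
  simp [le_iff_lt_or_eq, Fin.ext_iff, or_comm]

theorem pre_succ (D : Fin a → ℕ) {m : ℕ} (hm : m < a) :
    pre D (m + 1) = pre D m + D ⟨m, hm⟩ := by
  rw [pre, filter_succ hm, sum_insert (by simp), add_comm]; rfl

/-- Slot degrees after `m` raising steps. -/
def dm (b D : Fin a → ℕ) (m : ℕ) : Option (Fin a) → ℕ
  | none => pre D m
  | some i => if (i : ℕ) < m then b i - D i else b i

noncomputable def Wop (D : Fin a → ℕ) : ℕ → (Pol K a κ → Pol K a κ)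
  | 0 => id
  | m + 1 => fun x =>
      if h : m < a then Wop D m ((Eup ⟨m, h⟩ : Pol K a κ → Pol K a κ)^[D ⟨m, h⟩] x) else x

theorem Wop_smul (D : Fin a → ℕ) (m : ℕ) (k : K) (x : Pol K a κ) : Wop D m (k • x) = k • Wop D m x := by
  induction m generalizing x with
  | zero => rfl
  | succ m ih =>
    simp only [Wop]
    split_ifs with h
    · rw [iter_smul, ih]
    · rfl

theorem Wop_add (D : Fin a → ℕ) (m : ℕ) (x y : Pol K a κ) : Wop D m (x + y) = Wop D m x + Wop D m y := by
  induction m generalizing x y with
  | zero => rfl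
  | succ m ih =>
    simp only [Wop]
    split_ifs with h
    · rw [← ih]
      congr 1
      have := iter_sub (Eup ⟨m, h⟩) (D ⟨m, h⟩) (x + y) y
      rw [add_sub_cancel_right] at this
      rw [this, sub_add_cancel]
    · rfl

noncomputable def Wlin (D : Fin a → ℕ) (m : ℕ) : Pol K a κ →ₗ[K] Pol K a κ where
  toFun := Wop D m
  map_add' := Wop_add D m
  map_smul' := Wop_smul D m

theorem Wop_surj {b D : Fin a → ℕ} (hb : ∀ i : Fin a, D i + pre D i ≤ b i) :
    ∀ m, m ≤ a → ∀ P ∈ Tm K (dm b D 0),
      ∃ Q ∈ Tm K (dm b D m), Wlin (κ := κ) D m Q = P := by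
  intro m
  induction m with
  | zero => exact fun _ P hP => ⟨P, hP, rfl⟩
  | succ m ih =>
    intro hm P hP
    obtain ⟨Q, hQ, rfl⟩ := ih (by omega) P hP
    set i : Fin a := ⟨m, hm⟩
    have e0 : upd (dm b D m) i (b i) (pre D m) = dm b D m := by
      conv_rhs => rw [← upd_id (dm b D m) i]
      simp [dm, i]
    rw [← e0] at hQ
    obtain ⟨Q', hQ', hE⟩ := exists_raise i (pre D m) (D i) (b i) (dm b D m) Q hQ (hb i)
    refine ⟨Q', ?_, ?_⟩
    · have e1 : upd (dm b D m) i (b i - D i) (pre D m + D i) = dm b D (m + 1) := by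
        funext o
        rcases o with _ | k
        · simp [dm, pre_succ D hm, i]
        · rcases eq_or_ne k i with h | h
          · subst h; simp [dm, i]
          · have : (k : ℕ) ≠ m := fun e => h (Fin.ext e)
            simp [dm, upd, h, le_iff_lt_or_eq, this]
      rwa [e1] at hQ'
    · simp only [Wlin, LinearMap.coe_mk, AddHom.coe_mk, Wop, dif_pos (show m < a by omega), ← hE]
      rfl

theorem Wop_eval (D : Fin a → ℕ) (c : κ → K) : ∀ m, m ≤ a → ∀ g : Pol K a κ,
    (∀ i : Fin a, Eup i g = 0) →
    ∃ k : K, Wop D m (g * lin none c ^ pre D m)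
      = k • (g * ∏ i ∈ univ.filter (fun i : Fin a => (i : ℕ) < m), lin (some i) c ^ D i) := by
  intro m
  induction m with
  | zero => exact fun _ g _ => ⟨1, by simp [Wop, pre]⟩
  | succ m ih =>
    intro hm g hg
    set i : Fin a := ⟨m, hm⟩
    obtain ⟨k, hk⟩ := deriv_pow_mul (Eup i) (hg i)
      (show Eup i (lin none c) = lin (some i) c by simp [shiftD_lin])
      (show Eup i (lin (some i) c) = 0 by simp [shiftD_lin]) (pre D m) (D i)
    obtain ⟨k', hk'⟩ := ih (by omega) (g * lin (some i) c ^ D i) (fun l => by
      simp [Derivation.leibniz_pow, hg l, shiftD_lin])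
    refine ⟨k * k', ?_⟩
    have hW : Wop (K := K) (κ := κ) D (m + 1) (g * lin none c ^ (pre D m + D i))
        = k • Wop D m (g * lin (some i) c ^ D i * lin none c ^ pre D m) := by
      simp only [Wop, dif_pos (show m < a by omega)]
      rw [show (⟨m, by omega⟩ : Fin a) = i from rfl, hk, Wop_smul]
    rw [pre_succ D hm, hW, hk', smul_smul]
    congr 1
    rw [filter_succ hm, prod_insert (by simp), mul_assoc]

theorem prod_X_mem (o : Option (Fin a)) (d : κ → ℕ) :
    (∏ j, (X (o, j) : Pol K a κ) ^ d j) ∈ (LinearMap.range (lin (K := K) o)) ^ (∑ j, d j) := by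
  induction (univ : Finset κ) using Finset.induction_on with
  | empty => simp only [prod_empty, sum_empty, pow_zero]; exact Submodule.one_le.mp le_rfl
  | insert j s hj ih =>
    rw [prod_insert hj, sum_insert hj, pow_add]
    exact Submodule.mul_mem_mul (Submodule.pow_mem_pow _ (LinearMap.mem_range.mpr ⟨Pi.single j 1, lin_single o j⟩) _) ih

theorem Tslot_decomp {b D : Fin a → ℕ} (hb : ∀ i : Fin a, D i + pre D i ≤ b i) :
    Tslot K a κ b ≤ Submodule.span K {x | ∃ (c : κ → K) (g : Fin a → Multiset (κ → K)),
      (∀ i, Multiset.card (g i) = b i - D i) ∧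
        x = (∏ i, lin (some i) c ^ D i) * tens g} := by
  rw [Tslot, Submodule.span_le]
  rintro _ ⟨g0, hg0, rfl⟩
  have h0 : dm b D 0 = fun o : Option (Fin a) => o.elim 0 b := by
    funext o
    rcases o with _ | k <;> simp [dm, pre]
  obtain ⟨Q, hQ, hQe⟩ := Wop_surj (κ := κ) hb a le_rfl _ (h0 ▸ tens_mem_Tm hg0)
  rw [SetLike.mem_coe, ← hQe]
  clear hQe
  induction hQ using Submodule.span_induction with
  | zero => simp
  | add x y _ _ hx hy => rw [map_add]; exact add_mem hx hy
  | smul r x _ hx => rw [map_smul]; exact Submodule.smul_mem _ _ hx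
  | mem x hx =>
    obtain ⟨d, hd, rfl⟩ := hx
    set g : Fin a → Multiset (κ → K) :=
      fun i => ∑ j, Multiset.replicate (d (some i, j)) (Pi.single j 1)
    have hg : ∀ i, Multiset.card (g i) = b i - D i := by
      intro i
      have := hd (some i)
      simp only [sdeg, dm, i.2, if_true] at this
      simp [g, Multiset.card_sum, this]
    have hmono : (monomial d (1 : K) : Pol K a κ)
        = (∏ j, X (none, j) ^ d (none, j)) * tens g := by
      rw [monomial_eq, map_one, one_mul, Finsupp.prod_fintype _ _ (fun s => pow_zero _),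
        Fintype.prod_prod_type, Fintype.prod_option, tens]
      congr 1
      refine Finset.prod_congr rfl fun i _ => ?_
      simp only [g]
      induction (univ : Finset κ) using Finset.induction_on with
      | empty => simp
      | insert j s hj ih =>
        rw [prod_insert hj, ih]
        simp [sum_insert hj, lin_single, Multiset.map_replicate]
    have hz : (∏ j, (X (none, j) : Pol K a κ) ^ d (none, j)) ∈
        Submodule.span K (Set.range fun c => lin (K := K) none c ^ (pre D a)) := by
      have := range_pow_le _ _ (prod_X_mem (K := K) (none : Option (Fin a)) fun j => d (none, j))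
      have e : ∑ j, d (none, j) = pre D a := hd none
      rwa [e] at this
    change Wlin D a (monomial d (1 : K)) ∈ _
    rw [hmono]
    clear hmono hd
    generalize (∏ j, (X (none, j) : Pol K a κ) ^ d (none, j)) = zz at hz ⊢
    induction hz using Submodule.span_induction with
    | zero => simp
    | add x y _ _ hx hy => rw [add_mul, map_add]; exact add_mem hx hy
    | smul r x _ hx => rw [smul_mul_assoc, map_smul]; exact Submodule.smul_mem _ _ hx
    | mem x hx =>
      obtain ⟨c, rfl⟩ := hx
      obtain ⟨k, hk⟩ := Wop_eval D c a le_rfl (tens g) (fun i => tens_killed i)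
      change Wop D a (lin none c ^ (pre D a) * tens g) ∈ _
      rw [mul_comm, hk]
      refine Submodule.smul_mem _ _ (Submodule.subset_span ⟨c, g, hg, ?_⟩)
      rw [filter_true_of_mem (fun i _ => i.2), mul_comm]

end Vale.Agent.P181
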