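import Mathlib
import Vale.Agent.P181.Raise
import Vale.Agent.P181.Core

/-!
The slot-symmetrised products of linear forms are generated in degree one from degree
`(a-1)^2` on, by induction on the number of slots.
-/

namespace Vale.Agent.P181

open MvPolynomial Finset

set_option linter.unusedSectionVars false

variable {K : Type*} [Field K] [CharZero K] {a n : ℕ} {κ : Type*} [Fintype κ] [DecidableEq κ]

/-- Span of the products `∏ i, z(y_i)`. -/
noncomputable def R1 (K : Type*) [Field K] (a : ℕ) (κ : Type*) [Fintype κ] :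
    Submodule K (Pol K a κ) :=
  Submodule.span K (Set.range Ez)

theorem Ez_mem (c : κ → K) : (Ez c : Pol K a κ) ∈ R1 K a κ := Submodule.subset_span ⟨c, rfl⟩

/-- Coefficients of the binary expansion of `∏ i, (z + t u)(y_i)`. -/
noncomputable def Hc (z u : κ → K) (r : ℕ) : Pol K a κ :=
  ∑ s ∈ (univ : Finset (Fin a)).powersetCard r,
    (∏ i ∈ s, lin (some i) u) * ∏ i ∈ univ \ s, lin (some i) z

theorem Ez_expand (z u : κ → K) (t : K) :
    (Ez (t • u + z) : Pol K a κ) = ∑ r ∈ range (a + 1), t ^ r • Hc z u r := by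
  simp only [Ez, map_add, map_smul]
  rw [prod_add, sum_powerset, card_univ, Fintype.card_fin]
  refine Finset.sum_congr rfl fun r _ => ?_
  rw [Hc, Finset.smul_sum]
  refine Finset.sum_congr rfl fun s hs => ?_
  simp only [Algebra.smul_def, prod_mul_distrib, prod_const, map_pow,
    (mem_powersetCard.mp hs).2, mul_assoc]

theorem Hc_zero_of_lt (z u : κ → K) {r : ℕ} (hr : a < r) : (Hc z u r : Pol K a κ) = 0 := by
  rw [Hc, powersetCard_eq_empty.mpr (by simpa using hr), sum_empty]

theorem Hc_mem (z u : κ → K) (r : ℕ) : (Hc z u r : Pol K a κ) ∈ R1 K a κ := by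
  rcases Nat.lt_or_ge a r with hr | hr
  · simp [Hc_zero_of_lt z u hr]
  · exact coeff_mem_of_eval (R1 K a κ) (a + 1) (Hc z u)
      (fun t => Ez_expand z u t ▸ Ez_mem _) r (by omega)

theorem Hc_zero (z u : κ → K) : (Hc z u 0 : Pol K a κ) = Ez z := by simp [Hc, Ez]

/-- Permutation of the slots. -/
noncomputable def ren (τ : Equiv.Perm (Fin a)) : Pol K a κ →ₐ[K] Pol K a κ :=
  rename fun s => (s.1.map τ, s.2)

/-- Symmetrisation over the slots. -/
noncomputable def Sy : Pol K a κ →ₗ[K] Pol K a κ :=
  ∑ τ : Equiv.Perm (Fin a), (ren τ).toLinearMap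

theorem Sy_apply (x : Pol K a κ) : Sy x = ∑ τ : Equiv.Perm (Fin a), ren τ x := by
  simp [Sy]

theorem ren_lin (τ : Equiv.Perm (Fin a)) (i : Fin a) (c : κ → K) :
    ren τ (lin (some i) c : Pol K a κ) = lin (some (τ i)) c := by
  simp [lin_apply, ren]

theorem ren_tens (τ : Equiv.Perm (Fin a)) (g : Fin a → Multiset (κ → K)) :
    ren τ (tens g) = ∏ i, ((g i).map (lin (some (τ i)))).prod := by
  simp [tens, map_prod, map_multiset_prod, Multiset.map_map, ren_lin]

theorem ren_R1_pow (τ : Equiv.Perm (Fin a)) {j : ℕ} {p : Pol K a κ} (hp : p ∈ R1 K a κ ^ j) :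
    ren τ p = p := by
  have h : R1 K a κ ^ j ≤ LinearMap.eqLocus (ren τ).toLinearMap LinearMap.id := by
    rw [R1, Submodule.span_pow, Submodule.span_le]
    intro x hx
    obtain ⟨f, rfl⟩ := Set.mem_pow.mp hx
    change ren τ _ = _
    rw [List.prod_ofFn, map_prod]
    refine Finset.prod_congr rfl fun r _ => ?_
    obtain ⟨c, hc⟩ := (f r).2
    rw [← hc, Ez, map_prod]
    simp only [ren_lin]
    exact Equiv.prod_comp τ (fun i => (lin (some i) c : Pol K a κ))
  exact h hp

theorem Sy_mul {j : ℕ} {p : Pol K a κ} (hp : p ∈ R1 K a κ ^ j) (x : Pol K a κ) :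
    Sy (p * x) = p * Sy x := by
  simp [Sy_apply, mul_sum, ren_R1_pow _ hp]

theorem Sy_ren (σ : Equiv.Perm (Fin a)) (x : Pol K a κ) : Sy (ren σ x) = Sy x := by
  simp only [Sy_apply]
  refine Fintype.sum_equiv (Equiv.mulRight σ) _ _ fun τ => ?_
  simp only [ren, rename_rename, Equiv.coe_mulRight]
  congr 1
  simp [Function.comp_def, Option.map_map]

theorem R1_pow_mul_le {X : Submodule K (Pol K a κ)} {j i : ℕ}
    (hX : ∀ x ∈ X, Sy x ∈ R1 K a κ ^ i) : ∀ x ∈ R1 K a κ ^ j * X, Sy x ∈ R1 K a κ ^ (j + i) := by
  intro x hx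
  induction hx using Submodule.mul_induction_on' with
  | mem_mul_mem p hp q hq =>
    rw [Sy_mul hp, pow_add]
    exact Submodule.mul_mem_mul hp (hX q hq)
  | add x _ y _ hx hy => rw [map_add]; exact add_mem hx hy

/-- The first `n` of `n + 1` slots. -/
noncomputable def emb : Pol K n κ →ₐ[K] Pol K (n + 1) κ :=
  rename fun s => (s.1.map Fin.castSucc, s.2)

theorem emb_lin (i : Fin n) (c : κ → K) :
    emb (lin (some i) c : Pol K n κ) = lin (some i.castSucc) c := by
  simp [lin_apply, emb]

theorem emb_Ez (c : κ → K) : emb (Ez c : Pol K n κ) = ∏ i : Fin n, lin (some i.castSucc) c := by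
  simp [Ez, map_prod, emb_lin]

theorem emb_tens (g : Fin (n + 1) → Multiset (κ → K)) :
    tens g = emb (tens fun i => g i.castSucc) * ((g (Fin.last n)).map (lin (some (Fin.last n)))).prod := by
  simp [tens, Fin.prod_univ_castSucc, map_prod, map_multiset_prod, Multiset.map_map, emb_lin]

/-- Products of one linear form over the first `n` slots. -/
noncomputable def R1' (K : Type*) [Field K] (n : ℕ) (κ : Type*) [Fintype κ] :
    Submodule K (Pol K (n + 1) κ) :=
  (R1 K n κ).map emb.toLinearMap

/-- Linear forms in the last slot. -/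
noncomputable def Lv (K : Type*) [Field K] (n : ℕ) (κ : Type*) [Fintype κ] :
    Submodule K (Pol K (n + 1) κ) :=
  LinearMap.range (lin (some (Fin.last n)))

theorem lin_mem_Lv (c : κ → K) : lin (some (Fin.last n)) c ∈ Lv K n κ :=
  LinearMap.mem_range_self _ c

/-- Full coefficient of the binary expansion. -/
noncomputable def Fc (c d : κ → K) : ℕ → Pol K (n + 1) κ
  | 0 => lin (some (Fin.last n)) c * emb (Hc c d 0)
  | r + 1 => lin (some (Fin.last n)) d * emb (Hc c d r) + lin (some (Fin.last n)) c * emb (Hc c d (r + 1))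

theorem Fc_mem (c d : κ → K) (r : ℕ) : Fc (n := n) c d r ∈ R1 K (n + 1) κ := by
  rcases Nat.lt_or_ge (n + 1) r with hr | hr
  · obtain ⟨r, rfl⟩ : ∃ s, r = s + 1 := ⟨r - 1, by omega⟩
    simp [Fc, Hc_zero_of_lt c d (show n < r by omega), Hc_zero_of_lt c d (show n < r + 1 by omega)]
  refine coeff_mem_of_eval (R1 K (n + 1) κ) (n + 2) (Fc c d) (fun t => ?_) r (by omega)
  have h := Ez_mem (a := n + 1) (t • d + c)
  have e : (Ez (t • d + c) : Pol K (n + 1) κ) = ∑ s ∈ range (n + 2), t ^ s • Fc c d s := by
    set S := ∑ s ∈ range (n + 1), t ^ s • emb (Hc c d s : Pol K n κ) with hS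
    have e1 : (Ez (t • d + c) : Pol K (n + 1) κ)
        = t • (lin (some (Fin.last n)) d * S) + lin (some (Fin.last n)) c * S := by
      rw [Ez, Fin.prod_univ_castSucc, ← emb_Ez, Ez_expand, map_sum]
      simp only [map_smul, map_add, mul_add, mul_smul_comm, hS, mul_comm (lin (some (Fin.last n)) _)]
    have e2 : S = ∑ s ∈ range (n + 1), t ^ (s + 1) • emb (Hc c d (s + 1) : Pol K n κ) + emb (Hc c d 0) := by
      have := sum_range_succ' (fun s => t ^ s • emb (Hc c d s : Pol K n κ)) (n + 1)
      rw [sum_range_succ] at this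
      simpa [hS, Hc_zero_of_lt c d (Nat.lt_succ_self n)] using this
    rw [e1, sum_range_succ' (fun s => t ^ s • Fc c d s) (n + 1)]
    conv_lhs => arg 2; rw [e2]
    simp only [hS, Fc, smul_add, sum_add_distrib, mul_add, mul_sum, smul_sum, mul_smul_comm,
      smul_smul, ← pow_succ', pow_zero, one_smul, add_assoc]
  rwa [e] at h

theorem Hc_mem' (c d : κ → K) (r : ℕ) : emb (Hc c d r : Pol K n κ) ∈ R1' K n κ :=
  Submodule.mem_map_of_mem (Hc_mem c d r)

/-- Lower the degree of the last slot while one product over all slots splits off. -/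
theorem step {j : ℕ} (hj : n ≤ j) :
    R1' K n κ * Lv K n κ ^ (j + 1) ≤ R1 K (n + 1) κ * Lv K n κ ^ j := by
  set v : (κ → K) →ₗ[K] Pol K (n + 1) κ := lin (some (Fin.last n))
  have key : ∀ (c d : κ → K) (l r : ℕ), r + l = n + 1 →
      emb (Hc c d r) * (v c ^ r * v d ^ (j + 1 - r)) ∈ R1 K (n + 1) κ * Lv K n κ ^ j := by
    intro c d l
    induction l with
    | zero =>
      intro r hr
      simp [Hc_zero_of_lt c d (show n < r by omega)]
    | succ l ih =>
      intro r hr
      have hm : Fc c d (r + 1) * (v c ^ r * v d ^ (j - r)) ∈ R1 K (n + 1) κ * Lv K n κ ^ j := by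
        refine Submodule.mul_mem_mul (Fc_mem c d _) ?_
        rw [show Lv K n κ ^ j = Lv K n κ ^ r * Lv K n κ ^ (j - r) by
          rw [← pow_add, Nat.add_sub_cancel' (by omega)]]
        exact Submodule.mul_mem_mul (Submodule.pow_mem_pow _ (lin_mem_Lv c) r)
          (Submodule.pow_mem_pow _ (lin_mem_Lv d) _)
      have := sub_mem hm (ih (r + 1) (by omega))
      convert this using 1
      rw [Nat.add_sub_add_right, show j + 1 - r = j - r + 1 by omega]
      simp only [Fc, pow_succ, v]
      ring
  rw [Submodule.mul_le]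
  intro x hx y hy
  obtain ⟨x, hx', rfl⟩ := Submodule.mem_map.mp hx
  clear hx
  have hx : x ∈ Submodule.span K (Set.range Ez) := hx'
  clear hx'
  have hy' := range_pow_le v _ hy
  clear hy
  induction hy' using Submodule.span_induction with
  | mem y hy =>
    obtain ⟨d, rfl⟩ := hy
    induction hx using Submodule.span_induction with
    | mem x hx =>
      obtain ⟨c, rfl⟩ := hx
      simpa [Hc_zero] using key c d (n + 1) 0 (by omega)
    | zero => simp
    | add x y _ _ hx hy => rw [map_add, add_mul]; exact add_mem hx hy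
    | smul r x _ hx => rw [map_smul, smul_mul_assoc]; exact Submodule.smul_mem _ _ hx
  | zero => simp
  | add x y _ _ hx hy => rw [mul_add]; exact add_mem hx hy
  | smul r x _ hx => rw [mul_smul_comm]; exact Submodule.smul_mem _ _ hx

theorem step_iter : ∀ k, R1' K n κ ^ k * Lv K n κ ^ (n + k) ≤ R1 K (n + 1) κ ^ k * Lv K n κ ^ n
  | 0 => by simp
  | k + 1 => calc
      R1' K n κ ^ (k + 1) * Lv K n κ ^ (n + k + 1)
          = R1' K n κ ^ k * (R1' K n κ * Lv K n κ ^ (n + k + 1)) := by rw [pow_succ, mul_assoc]
      _ ≤ R1' K n κ ^ k * (R1 K (n + 1) κ * Lv K n κ ^ (n + k)) :=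
          mul_le_mul' le_rfl (step (by omega))
      _ = R1 K (n + 1) κ * (R1' K n κ ^ k * Lv K n κ ^ (n + k)) := mul_left_comm _ _ _
      _ ≤ R1 K (n + 1) κ * (R1 K (n + 1) κ ^ k * Lv K n κ ^ n) :=
          mul_le_mul' le_rfl (step_iter k)
      _ = R1 K (n + 1) κ ^ (k + 1) * Lv K n κ ^ n := by rw [pow_succ', mul_assoc]

theorem power_mem (c y : κ → K) : ∀ j i : ℕ,
    lin (some (Fin.last n)) y ^ (j + 1) * emb (Hc c y i) * emb (Ez c) ^ j
      ∈ R1 K (n + 1) κ ^ j * (R1' K n κ * Lv K n κ) := by
  intro j
  induction j with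
  | zero =>
    intro i
    simp only [pow_zero, mul_one, one_mul, zero_add, pow_one]
    rw [mul_comm (lin (some (Fin.last n)) y)]
    exact Submodule.mul_mem_mul (Hc_mem' c y i) (lin_mem_Lv y)
  | succ j ih =>
    intro i
    rw [pow_succ', mul_assoc]
    have := sub_mem (Submodule.mul_mem_mul (Fc_mem (n := n) c y (i + 1)) (ih 0))
      (Submodule.mul_mem_mul (Fc_mem (n := n) c y 0) (ih (i + 1)))
    convert this using 1
    simp only [Fc, Hc_zero, pow_succ]
    ring

theorem Sy_T1 : ∀ x ∈ R1' K n κ * Lv K n κ, Sy x ∈ R1 K (n + 1) κ ^ 1 := by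
  intro x hx
  induction hx using Submodule.mul_induction_on' with
  | add x _ y _ hx hy => rw [map_add]; exact add_mem hx hy
  | mem_mul_mem p hp q hq =>
    obtain ⟨w, rfl⟩ := hq
    obtain ⟨p, hp', rfl⟩ := Submodule.mem_map.mp hp
    clear hp
    have hp : p ∈ Submodule.span K (Set.range Ez) := hp'
    clear hp'
    induction hp using Submodule.span_induction with
    | zero => simp
    | add x y _ _ hx hy => rw [map_add, add_mul, map_add]; exact add_mem hx hy
    | smul r x _ hx => rw [map_smul, smul_mul_assoc, map_smul]; exact Submodule.smul_mem _ _ hx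
    | mem p hp =>
      obtain ⟨c, rfl⟩ := hp
      set x : Pol K (n + 1) κ := emb.toLinearMap (Ez c) * lin (some (Fin.last n)) w
      have hH : (Hc c w 1 : Pol K (n + 1) κ) ∈ R1 K (n + 1) κ ^ 1 := by
        rw [pow_one]; exact Hc_mem c w 1
      have hs : ∑ i, ren (Equiv.swap i (Fin.last n)) x = Hc c w 1 := by
        rw [Hc, powersetCard_one, sum_map]
        refine Finset.sum_congr rfl fun i _ => ?_
        simp only [x, AlgHom.toLinearMap_apply, emb_Ez, map_mul, map_prod, ren_lin,
          Function.Embedding.coeFn_mk, prod_singleton, Equiv.swap_apply_right]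
        rw [mul_comm]
        congr 1
        refine Finset.prod_bij (fun k _ => Equiv.swap i (Fin.last n) k.castSucc) ?_ ?_ ?_ ?_
        · intro k _
          simp only [mem_sdiff, mem_univ, mem_singleton, true_and]
          intro h
          have := (Equiv.swap i (Fin.last n)).injective (h.trans (Equiv.swap_apply_right _ _).symm)
          exact Fin.castSucc_ne_last k this
        · exact fun k _ l _ h => Fin.castSucc_injective _ ((Equiv.injective _) h)
        · intro l hl
          have hne : Equiv.swap i (Fin.last n) l ≠ Fin.last n := fun h => by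
            rw [Equiv.swap_apply_eq_iff, Equiv.swap_apply_right] at h
            simp [h] at hl
          obtain ⟨k, hk⟩ := Fin.exists_castSucc_eq.mpr hne
          exact ⟨k, mem_univ _, by rw [hk, Equiv.swap_apply_self]⟩
        · intro k _; rfl
      have h := congrArg Sy hs
      rw [map_sum] at h
      simp only [Sy_ren, sum_const, card_univ, Fintype.card_fin] at h
      rw [← mul_one (Hc c w 1), Sy_mul hH, ← Nat.cast_smul_eq_nsmul K] at h
      rw [← Submodule.smul_mem_iff _ (Nat.cast_ne_zero.mpr n.succ_ne_zero : ((n + 1 : ℕ) : K) ≠ 0), h,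
        Sy_apply]
      simp only [map_one, sum_const, card_univ, nsmul_eq_mul, mul_one]
      rw [mul_comm, ← nsmul_eq_mul]
      exact Submodule.smul_of_tower_mem _ _ hH

/-- A power of one linear form over all slots but the last, times a power in the last slot. -/
theorem Sy_power (c : κ → K) : ∀ y ∈ Lv K n κ ^ n, Sy (emb (Ez c) ^ n * y) ∈ R1 K (n + 1) κ ^ n := by
  intro y hy
  have hy' := range_pow_le (lin (some (Fin.last n)) : (κ → K) →ₗ[K] Pol K (n + 1) κ) _ hy
  clear hy
  induction hy' using Submodule.span_induction with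
  | zero => simp
  | add x y _ _ hx hy => rw [mul_add, map_add]; exact add_mem hx hy
  | smul r x _ hx => rw [mul_smul_comm, map_smul]; exact Submodule.smul_mem _ _ hx
  | mem y hy =>
    obtain ⟨d, rfl⟩ := hy
    cases n with
    | zero =>
      simp only [pow_zero, one_mul, Sy_apply, map_one, sum_const]
      exact Submodule.smul_of_tower_mem _ _ (Submodule.one_le.mp le_rfl)
    | succ m =>
      refine R1_pow_mul_le (j := m) Sy_T1 _ ?_
      convert power_mem c d m 0 using 1
      simp only [Hc_zero, pow_succ]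
      ring

/-- Extension of a permutation of the first `n` slots. -/
def extPerm (τ : Equiv.Perm (Fin n)) : Equiv.Perm (Fin (n + 1)) :=
  finSuccEquivLast.symm.permCongr τ.optionCongr

theorem extPerm_last (τ : Equiv.Perm (Fin n)) : extPerm τ (Fin.last n) = Fin.last n := by
  simp [extPerm]

theorem extPerm_castSucc (τ : Equiv.Perm (Fin n)) (i : Fin n) :
    extPerm τ i.castSucc = (τ i).castSucc := by
  simp [extPerm]

theorem ren_emb (τ : Equiv.Perm (Fin n)) (x : Pol K n κ) :
    ren (extPerm τ) (emb x) = emb (ren τ x) := by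
  simp only [ren, emb, rename_rename]
  refine congrArg (fun f => rename f x) (funext fun s => ?_)
  rcases s with ⟨_ | i, j⟩ <;> simp [extPerm_castSucc]

theorem ren_Lv (τ : Equiv.Perm (Fin n)) {k : ℕ} {y : Pol K (n + 1) κ} (hy : y ∈ Lv K n κ ^ k) :
    ren (extPerm τ) y = y := by
  have hy' := range_pow_le (lin (some (Fin.last n)) : (κ → K) →ₗ[K] Pol K (n + 1) κ) _ hy
  clear hy
  induction hy' using Submodule.span_induction with
  | mem y hy => obtain ⟨d, rfl⟩ := hy; simp [ren_lin, extPerm_last]
  | zero => simp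
  | add x y _ _ hx hy => rw [map_add, hx, hy]
  | smul r x _ hx => rw [map_smul, hx]

/-- Averaging over the first `n` slots. -/
theorem Sy_average (c : κ → K) (x : Pol K n κ) {k : ℕ} {y : Pol K (n + 1) κ} (hy : y ∈ Lv K n κ ^ k) :
    Sy (emb (Ez c) ^ n * (emb (Sy x) * y))
      = (Fintype.card (Equiv.Perm (Fin n)) : K) • Sy (emb (Ez c) ^ n * (emb x * y)) := by
  have h : ∀ τ : Equiv.Perm (Fin n),
      Sy (emb (Ez c) ^ n * (emb (ren τ x) * y)) = Sy (emb (Ez c) ^ n * (emb x * y)) := by
    intro τ
    rw [← Sy_ren (extPerm τ) (emb (Ez c) ^ n * (emb x * y))]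
    simp only [map_mul, map_pow, ren_emb, ren_Lv τ hy]
    rw [ren_R1_pow τ (show (Ez c : Pol K n κ) ∈ R1 K n κ ^ 1 by rw [pow_one]; exact Ez_mem c)]
  simp only [Sy_apply x, map_sum, sum_mul, mul_sum, h, sum_const, card_univ,
    ← Nat.cast_smul_eq_nsmul K]

/-- The invariant ring is generated in degree one from degree `(a-1)^2` on. -/
theorem invariant_mem : ∀ {a b : ℕ}, (a - 1) ^ 2 ≤ b → ∀ {x : Pol K a κ},
    x ∈ Tslot K a κ (fun _ => b) → Sy x ∈ R1 K a κ ^ b := by
  intro a
  induction a with
  | zero =>
    intro b _ x hx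
    rw [Tslot] at hx
    induction hx using Submodule.span_induction with
    | mem x hx =>
      obtain ⟨g, _, rfl⟩ := hx
      simpa [Sy_apply, tens, Ez] using Submodule.pow_mem_pow (R1 K 0 κ) (Ez_mem (0 : κ → K)) b
    | zero => simp
    | add x y _ _ hx hy => rw [map_add]; exact add_mem hx hy
    | smul r x _ hx => rw [map_smul]; exact Submodule.smul_mem _ _ hx
  | succ n ih =>
    intro b hb x hx
    rw [Nat.add_sub_cancel] at hb
    set D : Fin (n + 1) → ℕ := Fin.lastCases 0 (fun _ => n)
    have hpre : ∀ m, m ≤ n → pre D m = m * n := by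
      intro m
      induction m with
      | zero => simp [pre]
      | succ m ihm =>
        intro hm
        rw [pre_succ D (by omega : m < n + 1), ihm (by omega),
          show (⟨m, by omega⟩ : Fin (n + 1)) = (⟨m, by omega⟩ : Fin n).castSucc from rfl,
          show D (⟨m, by omega⟩ : Fin n).castSucc = n from Fin.lastCases_castSucc _, Nat.succ_mul]
    have hx' := Tslot_decomp (D := D) (fun i => by
      induction i using Fin.lastCases with
      | last => simp only [D, Fin.lastCases_last, Fin.val_last, hpre n le_rfl]; nlinarith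
      | cast i =>
        simp only [D, Fin.lastCases_castSucc, Fin.val_castSucc, hpre i i.2.le]
        nlinarith [i.2]) hx
    clear hx hpre
    induction hx' using Submodule.span_induction with
    | zero => simp
    | add x y _ _ hx hy => rw [map_add]; exact add_mem hx hy
    | smul r x _ hx => rw [map_smul]; exact Submodule.smul_mem _ _ hx
    | mem x hx =>
      obtain ⟨c, g, hg, rfl⟩ := hx
      have hnb : n ≤ b := le_trans (Nat.le_self_pow two_ne_zero n) hb
      obtain ⟨k, rfl⟩ := Nat.exists_eq_add_of_le hnb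
      have hk : (n - 1) ^ 2 ≤ k := by
        rcases n with _ | m
        · simp
        · simp only [Nat.add_sub_cancel]; nlinarith
      have hy : ((g (Fin.last n)).map (lin (some (Fin.last n)))).prod ∈ Lv K n κ ^ (n + k) := by
        have hc : Multiset.card (g (Fin.last n)) = n + k := by simp [hg, D]
        rw [← hc]
        generalize g (Fin.last n) = s
        induction s using Multiset.induction_on with
        | empty => simp only [Multiset.map_zero, Multiset.prod_zero, Multiset.card_zero, pow_zero]; exact Submodule.one_le.mp le_rfl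
        | cons d s ihs =>
          rw [Multiset.map_cons, Multiset.prod_cons, Multiset.card_cons, pow_succ']
          exact Submodule.mul_mem_mul (lin_mem_Lv d) ihs
      rw [emb_tens, Fin.prod_univ_castSucc,
        show D (Fin.last n) = 0 by simp [D], pow_zero, mul_one]
      simp only [D, Fin.lastCases_castSucc, prod_pow, ← emb_Ez]
      generalize ((g (Fin.last n)).map (lin (some (Fin.last n)))).prod = y at hy ⊢
      have hs := ih (b := k) hk (tens_mem (g := fun i : Fin n => g i.castSucc) (k := fun _ => k)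
        fun i => by simp [hg, D])
      generalize tens (fun i : Fin n => g i.castSucc) = u at hs ⊢
      have hcard : (Fintype.card (Equiv.Perm (Fin n)) : K) ≠ 0 :=
        Nat.cast_ne_zero.mpr Fintype.card_ne_zero
      rw [← Submodule.smul_mem_iff _ hcard, ← Sy_average c u hy]
      have hm : emb (Sy u) ∈ R1' K n κ ^ k := by
        rw [R1', ← Submodule.map_pow]
        exact Submodule.mem_map_of_mem hs
      have := step_iter k (Submodule.mul_mem_mul hm hy)
      generalize emb (Sy u) * y = w at this ⊢
      induction this using Submodule.mul_induction_on' with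
      | mem_mul_mem p hp q hq =>
        rw [mul_left_comm, Sy_mul hp, Nat.add_comm n k, pow_add]
        exact Submodule.mul_mem_mul hp (Sy_power c q hq)
      | add x _ y _ hx hy => rw [mul_add, map_add]; exact add_mem hx hy

end Vale.Agent.P181
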