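import Mathlib
import Vale.Agent.P181.Raise
import Vale.Agent.P181.Core
import Vale.Agent.P181.Quad

namespace Vale.Agent.P181

open MvPolynomial Finset
open scoped TensorProduct

set_option linter.unusedSectionVars false

section lifting

variable {K : Type} [Field K] {ι : Type} {M N : Type*} [AddCommGroup M] [Module K M]
  [AddCommGroup N] [Module K N]

/-- A symmetric multilinear map factors through the symmetric power. -/
noncomputable def symLift (f : MultilinearMap K (fun _ : ι => M) N)
    (hf : ∀ (e : Equiv.Perm ι) (v : ι → M), f (fun i => v (e i)) = f v) :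
    SymmetricPower K ι M →ₗ[K] N where
  toFun := AddCon.lift _ (PiTensorProduct.lift f).toAddMonoidHom
    (AddCon.addConGen_le.mpr fun x y h => by
      cases h with
      | perm e v =>
        simp [AddCon.ker_rel, hf])
  map_add' := map_add _
  map_smul' r x := by
    induction x using AddCon.induction_on with
    | H x => exact map_smul (PiTensorProduct.lift f) r x

theorem symLift_tprod (f : MultilinearMap K (fun _ : ι => M) N)
    (hf : ∀ (e : Equiv.Perm ι) (v : ι → M), f (fun i => v (e i)) = f v) (v : ι → M) :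
    symLift f hf (SymmetricPower.tprod K v) = f v :=
  PiTensorProduct.lift.tprod (φ := f) v

theorem multilinear_zero_of_span [Fintype ι] [DecidableEq ι] (f : MultilinearMap K (fun _ : ι => M) N)
    (S : Set M) (hS : Submodule.span K S = ⊤) (h : ∀ w : ι → M, (∀ i, w i ∈ S) → f w = 0) :
    ∀ w, f w = 0 := by
  have key : ∀ (U : Finset ι) (w : ι → M), (∀ i ∉ U, w i ∈ S) → f w = 0 := by
    intro U
    induction U using Finset.induction_on with
    | empty => exact fun w hw => h w fun i => hw i (by simp)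
    | insert i U hi ih =>
      intro w hw
      have : ∀ x ∈ Submodule.span K S, f (Function.update w i x) = 0 := by
        intro x hx
        induction hx using Submodule.span_induction with
        | mem x hx =>
          refine ih _ fun k hk => ?_
          rcases eq_or_ne k i with rfl | hki
          · simpa using hx
          · rw [Function.update_of_ne hki]; exact hw k (by simp [hki, hk])
        | zero => exact f.map_update_zero w i
        | add x y _ _ hx hy => rw [f.map_update_add, hx, hy, add_zero]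
        | smul r x _ hx => rw [f.map_update_smul, hx, smul_zero]
      simpa using this (w i) (hS ▸ Submodule.mem_top)
  exact fun w => key univ w (by simp)

end lifting

variable {K : Type} [Field K] [CharZero K] {κ : Type} [Fintype κ] [DecidableEq κ]
  {V : Type*} [AddCommGroup V] [Module K V] (B : Module.Basis κ K V) {a b : ℕ}

theorem expand2 {p q : ℕ} (u : Fin p → Fin q → V) :
    (⨂ₛ[K] x, ⨂ₛ[K] y, u x y)
      = ∑ t : Fin p → Fin q → κ, (∏ x, ∏ y, B.coord (t x y) (u x y)) •
          ⨂ₛ[K] x, ⨂ₛ[K] y, B (t x y) := by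
  conv_lhs => enter [2, x, 2, y]; rw [← B.sum_repr (u x y)]
  simp only [MultilinearMap.map_sum, MultilinearMap.map_smul_univ, Module.Basis.coord_apply]

/-- `v ↦ (s ↦ ∑_π ∏_r (s_r-th coordinate of v (π r)))`. -/
noncomputable def rho : SymmetricPower K (Fin b) V →ₗ[K] ((Fin b → κ) → K) :=
  symLift (MultilinearMap.pi fun s => ∑ π : Equiv.Perm (Fin b),
      ((MultilinearMap.mkPiAlgebra K (Fin b) K).compLinearMap fun r => B.coord (s r)).domDomCongr π)
    (fun e v => funext fun s => by
      simp only [MultilinearMap.pi_apply, _root_.sum_apply, MultilinearMap.domDomCongr_apply]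
      exact Fintype.sum_equiv (Equiv.mulLeft e) _ _ fun π => rfl)

theorem rho_tprod (v : Fin b → V) (s : Fin b → κ) :
    rho B (⨂ₛ[K] r, v r) s = ∑ π : Equiv.Perm (Fin b), ∏ r, B.coord (s r) (v (π r)) := by
  simp [rho, symLift_tprod]

/-- The canonical map as a multilinear map on rows. -/
noncomputable def psiMul : MultilinearMap K (fun _ : Fin a => SymmetricPower K (Fin b) V)
    (SymmetricPower K (Fin b) (SymmetricPower K (Fin a) V)) :=
  ∑ t : Fin a → Fin b → κ,
    ((MultilinearMap.mkPiAlgebra K (Fin a) K).compLinearMap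
      fun i => (LinearMap.proj (t i)).comp (rho B)).smulRight (⨂ₛ[K] r, ⨂ₛ[K] i, B (t i r))

theorem psiMul_symm (e : Equiv.Perm (Fin a)) (w : Fin a → SymmetricPower K (Fin b) V) :
    psiMul B (fun i => w (e i)) = psiMul B w := by
  simp only [psiMul, _root_.sum_apply, MultilinearMap.smulRight_apply,
    MultilinearMap.compLinearMap_apply, MultilinearMap.mkPiAlgebra_apply, LinearMap.comp_apply,
    LinearMap.proj_apply]
  refine Fintype.sum_equiv (Equiv.arrowCongr e (Equiv.refl _)) _ _ fun t => ?_
  congr 1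
  · conv_rhs => rw [← Equiv.prod_comp e]
    simp [Equiv.arrowCongr]
  · congr 1
    funext r
    conv_rhs => rw [← SymmetricPower.tprod_equiv e]
    simp [Equiv.arrowCongr]

/-- The Foulkes-Howe map. -/
noncomputable def psi : SymmetricPower K (Fin a) (SymmetricPower K (Fin b) V) →ₗ[K]
    SymmetricPower K (Fin b) (SymmetricPower K (Fin a) V) :=
  symLift (psiMul B) (psiMul_symm B)

theorem psi_tprod (v : Fin a → Fin b → V) :
    psi B (⨂ₛ[K] i, ⨂ₛ[K] j, v i j)
      = ∑ σ : Fin a → Equiv.Perm (Fin b), ⨂ₛ[K] j, ⨂ₛ[K] i, v i (σ i j) := by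
  simp only [psi, symLift_tprod, psiMul, _root_.sum_apply, MultilinearMap.smulRight_apply,
    MultilinearMap.compLinearMap_apply, MultilinearMap.mkPiAlgebra_apply, LinearMap.comp_apply,
    LinearMap.proj_apply, rho_tprod, Fintype.prod_sum, Finset.sum_smul]
  rw [Finset.sum_comm]
  refine Finset.sum_congr rfl fun σ _ => ?_
  rw [expand2 B (fun j i => v i (σ i j))]
  exact Fintype.sum_equiv (Equiv.piComm _) _ _ fun t => by
    rw [Finset.prod_comm]; rfl

theorem coeff_perm (A : Fin a → Fin b → Fin b → K) :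
    coeff (Finsupp.equivFunOnFinite.symm fun _ => 1)
      (∏ i, ∏ s, ∑ r, monomial (Finsupp.single (i, r) 1) (A i s r))
      = ∑ π : Fin a → Equiv.Perm (Fin b), ∏ i, ∏ s, A i s (π i s) := by
  rw [← Fintype.prod_prod_type' (fun i s => ∑ r, monomial (Finsupp.single (i, r) 1) (A i s r)),
    Fintype.prod_sum, coeff_sum]
  have hm : ∀ (h : Fin a × Fin b → Fin b) (U : Finset (Fin a × Fin b)),
      ∏ p ∈ U, monomial (Finsupp.single (p.1, h p) 1) (A p.1 p.2 (h p))
        = monomial (∑ p ∈ U, Finsupp.single (p.1, h p) 1) (∏ p ∈ U, A p.1 p.2 (h p)) := by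
    intro h U
    induction U using Finset.induction_on with
    | empty => simp
    | insert p U hp ih => simp [prod_insert hp, sum_insert hp, ih, monomial_mul]
  simp only [hm, coeff_monomial]
  rw [← sum_filter]
  symm
  refine Finset.sum_bij (fun π _ p => π p.1 p.2) ?_ ?_ ?_ ?_
  · intro π _
    simp only [mem_filter, mem_univ, true_and]
    ext ⟨i, r⟩
    rw [Finsupp.finsetSum_apply, Finset.sum_eq_single (i, (π i).symm r)]
    · simp
    · rintro ⟨i', s⟩ _ hne
      refine Finsupp.single_eq_of_ne fun h => hne ?_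
      simp only [Prod.mk.injEq] at h ⊢
      obtain ⟨rfl, h2⟩ := h
      exact ⟨rfl, by rw [h2, Equiv.symm_apply_apply]⟩
    · simp
  · intro π _ π' _ h
    funext i
    ext s
    exact congrArg Fin.val (congrFun h (i, s))
  · intro h hh
    simp only [mem_filter, mem_univ, true_and] at hh
    have inj : ∀ i, Function.Injective fun s => h (i, s) := by
      intro i s s' e
      by_contra hne
      have hv := congrArg (fun f => f (i, h (i, s))) hh
      simp only [Finsupp.finsetSum_apply, Finsupp.coe_equivFunOnFinite_symm] at hv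
      have hle : ∑ p ∈ ({(i, s), (i, s')} : Finset (Fin a × Fin b)),
          (Finsupp.single (p.1, h p) 1 : Fin a × Fin b →₀ ℕ) (i, h (i, s)) ≤ _ :=
        Finset.sum_le_sum_of_subset (subset_univ _)
      rw [hv, Finset.sum_pair (by simp [hne])] at hle
      simp only at e
      simp [← e] at hle
    exact ⟨fun i => Equiv.ofBijective _ (Finite.injective_iff_bijective.mp (inj i)),
      mem_univ _, funext fun p => rfl⟩
  · intro π _
    rw [Fintype.prod_prod_type]

/-- Polarised evaluation of polynomials at a tableau of vectors. -/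
noncomputable def ev (v : Fin a → Fin b → V) : Pol K a κ →ₐ[K] MvPolynomial (Fin a × Fin b) K :=
  aeval fun s => s.1.elim 0 fun i => ∑ r, monomial (Finsupp.single (i, r) 1) (B.coord s.2 (v i r))

/-- The functional of a polynomial. -/
noncomputable def Fn : Pol K a κ →ₗ[K] ((Fin a → Fin b → V) → K) where
  toFun P v := coeff (Finsupp.equivFunOnFinite.symm fun _ => 1) (ev B v P)
  map_add' P Q := by funext v; simp
  map_smul' r P := by funext v; simp

/-- Functional with coordinates `c`. -/
noncomputable def form (c : κ → K) : V →ₗ[K] K := ∑ j, c j • B.coord j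

theorem ev_lin (v : Fin a → Fin b → V) (i : Fin a) (c : κ → K) :
    ev B v (lin (some i) c) = ∑ r, monomial (Finsupp.single (i, r) 1) (form B c (v i r)) := by
  simp only [lin_apply, ev, map_sum, map_smul, aeval_X, Option.elim_some, smul_sum]
  rw [Finset.sum_comm]
  refine Finset.sum_congr rfl fun r _ => ?_
  simp [form, map_sum, smul_monomial]

theorem Fn_prod (v : Fin a → Fin b → V) (c : Fin a → Fin b → κ → K) :
    Fn B (∏ i, ∏ s, lin (some i) (c i s)) v
      = ∑ π : Fin a → Equiv.Perm (Fin b), ∏ i, ∏ s, form B (c i s) (v i (π i s)) := by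
  rw [← coeff_perm (fun i s r => form B (c i s) (v i r))]
  simp [Fn, map_prod, ev_lin]

/-- Product of functionals, as a functional on the symmetric power. -/
noncomputable def dualPow (n : ℕ) (φ : V →ₗ[K] K) : SymmetricPower K (Fin n) V →ₗ[K] K :=
  symLift ((MultilinearMap.mkPiAlgebra K (Fin n) K).compLinearMap fun _ => φ)
    (fun e v => by simpa using Equiv.prod_comp e (fun i => φ (v i)))

theorem Fn_mem {P : Pol K a κ} (hP : P ∈ R1 K a κ ^ b) :
    ∃ g : SymmetricPower K (Fin b) (SymmetricPower K (Fin a) V) →ₗ[K] K,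
      ∀ v, Fn B P v = g (psi B (⨂ₛ[K] i, ⨂ₛ[K] j, v i j)) := by
  rw [R1, Submodule.span_pow] at hP
  induction hP using Submodule.span_induction with
  | mem x hx =>
    obtain ⟨f, rfl⟩ := Set.mem_pow.mp hx
    choose c hc using fun r => (f r).2
    let g' := symLift (∑ π : Equiv.Perm (Fin b),
      ((MultilinearMap.mkPiAlgebra K (Fin b) K).compLinearMap
        fun r => dualPow (K := K) a (form B (c r))).domDomCongr π) (fun e w => by
        simp only [_root_.sum_apply, MultilinearMap.domDomCongr_apply]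
        exact Fintype.sum_equiv (Equiv.mulLeft e) _ _ fun π => rfl)
    refine ⟨((Fintype.card (Equiv.Perm (Fin b)) : K))⁻¹ • g', fun v => ?_⟩
    have hx' : (List.ofFn fun r => ((f r : Pol K a κ))).prod = ∏ i, ∏ r, lin (some i) (c r) := by
      rw [List.prod_ofFn, Finset.prod_comm]
      simp only [← hc, Ez]
    rw [hx', Fn_prod]
    have hg : g' (psi B (⨂ₛ[K] i, ⨂ₛ[K] j, v i j)) = ∑ π : Equiv.Perm (Fin b),
        ∑ σ : Fin a → Equiv.Perm (Fin b), ∏ r, ∏ i, form B (c r) (v i (σ i (π r))) := by
      rw [psi_tprod, map_sum, Finset.sum_comm]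
      refine Finset.sum_congr rfl fun σ _ => ?_
      simp [g', symLift_tprod, dualPow]
    have hc' : ∀ π : Equiv.Perm (Fin b),
        ∑ σ : Fin a → Equiv.Perm (Fin b), ∏ r, ∏ i, form B (c r) (v i (σ i (π r)))
          = ∑ σ : Fin a → Equiv.Perm (Fin b), ∏ i, ∏ r, form B (c r) (v i (σ i r)) := fun π =>
      Fintype.sum_equiv (Equiv.mulRight fun _ => π) _ _ fun σ => by
        rw [Finset.prod_comm]; rfl
    rw [LinearMap.smul_apply, hg, Finset.sum_congr rfl (fun π _ => hc' π), sum_const, card_univ,
      nsmul_eq_mul, smul_eq_mul, inv_mul_cancel_left₀]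
    exact Nat.cast_ne_zero.mpr Fintype.card_ne_zero
  | zero => exact ⟨0, fun v => by simp⟩
  | add x y _ _ hx hy =>
    obtain ⟨g, hg⟩ := hx
    obtain ⟨g', hg'⟩ := hy
    exact ⟨g + g', fun v => by simp [hg, hg']⟩
  | smul r x _ hx =>
    obtain ⟨g, hg⟩ := hx
    exact ⟨r • g, fun v => by simp [hg]⟩

theorem psi_injective (hb : (a - 1) ^ 2 ≤ b) :
    Function.Injective (psi B : SymmetricPower K (Fin a) (SymmetricPower K (Fin b) V) →ₗ[K] _) := by
  rw [← LinearMap.ker_eq_bot, eq_bot_iff]
  intro x hx
  rw [Submodule.mem_bot, ← Module.forall_dual_apply_eq_zero_iff K]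
  intro φ
  let gt : (Fin a → Fin b → κ) → Fin a → Multiset (κ → K) := fun t i =>
    (univ : Finset (Fin b)).val.map fun r => Pi.single (t i r) 1
  let P : Pol K a κ := ∑ t : Fin a → Fin b → κ,
    φ (⨂ₛ[K] i, ⨂ₛ[K] r, B (t i r)) • Sy (tens (gt t))
  have hP : P ∈ R1 K a κ ^ b := Submodule.sum_mem _ fun t _ =>
    Submodule.smul_mem _ _ (invariant_mem hb (tens_mem (k := fun _ => b) fun i => by simp [gt]))
  obtain ⟨g, hg⟩ := Fn_mem B hP
  set N : K := (Fintype.card (Equiv.Perm (Fin a)) : K) * Fintype.card (Fin a → Equiv.Perm (Fin b))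
  have hN : N ≠ 0 := mul_ne_zero (Nat.cast_ne_zero.mpr Fintype.card_ne_zero)
    (Nat.cast_ne_zero.mpr Fintype.card_ne_zero)
  have hF : ∀ v, Fn B P v = N • φ (⨂ₛ[K] i, ⨂ₛ[K] j, v i j) := by
    intro v
    have h1 : ∀ t, Fn B (Sy (tens (gt t))) v = ∑ τ : Equiv.Perm (Fin a),
        ∑ π : Fin a → Equiv.Perm (Fin b), ∏ i, ∏ r, B.coord (t i r) (v (τ i) (π (τ i) r)) := by
      intro t
      rw [Sy_apply, map_sum, Finset.sum_apply]
      refine Finset.sum_congr rfl fun τ _ => ?_
      have : ren τ (tens (gt t) : Pol K a κ)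
          = ∏ k, ∏ r, lin (some k) (Pi.single (t (τ.symm k) r) 1) := by
        rw [ren_tens, ← Equiv.prod_comp τ (fun k => ∏ r, lin (some k) _)]
        simp [gt, Finset.prod, Function.comp_def]
      rw [this, Fn_prod]
      refine Finset.sum_congr rfl fun π _ => ?_
      rw [← Equiv.prod_comp τ]
      refine Finset.prod_congr rfl fun i _ => Finset.prod_congr rfl fun r _ => ?_
      simp [form, Pi.single_apply]
    simp only [P, map_sum, map_smul, Finset.sum_apply, Pi.smul_apply, h1, smul_sum]
    rw [Finset.sum_comm]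
    have h2 : ∀ (τ : Equiv.Perm (Fin a)) (π : Fin a → Equiv.Perm (Fin b)),
        ∑ t : Fin a → Fin b → κ, φ (⨂ₛ[K] i, ⨂ₛ[K] r, B (t i r)) •
            ∏ i, ∏ r, B.coord (t i r) (v (τ i) (π (τ i) r))
          = φ (⨂ₛ[K] i, ⨂ₛ[K] j, v i j) := by
      intro τ π
      have e : (⨂ₛ[K] i, ⨂ₛ[K] j, v i j) = ⨂ₛ[K] i, ⨂ₛ[K] r, v (τ i) (π (τ i) r) := by
        rw [SymmetricPower.tprod_equiv τ (fun k => ⨂ₛ[K] r, v k (π k r))]
        simp
      rw [e, expand2 B (fun i r => v (τ i) (π (τ i) r))]
      simp [map_sum, mul_comm]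
    rw [Finset.sum_congr rfl fun τ _ => Finset.sum_comm]
    simp only [h2, sum_const, card_univ, N]
    simp only [← Nat.cast_smul_eq_nsmul K, smul_eq_mul, mul_assoc]
  have heq : φ = (N⁻¹) • g.comp (psi B) := by
    refine LinearMap.ext_on (SymmetricPower.span_tprod_eq_top K (Fin a) (SymmetricPower K (Fin b) V)) ?_
    rintro _ ⟨w, rfl⟩
    let f : MultilinearMap K (fun _ : Fin a => SymmetricPower K (Fin b) V) K :=
      (φ - N⁻¹ • g.comp (psi B)).compMultilinearMap (SymmetricPower.tprod K)
    have hf := multilinear_zero_of_span f _ (SymmetricPower.span_tprod_eq_top K (Fin b) V) ?_ w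
    · exact sub_eq_zero.mp (by simpa [f] using hf)
    intro w' hw'
    choose v hv using hw'
    obtain rfl : w' = fun i => ⨂ₛ[K] j, v i j := funext fun i => (hv i).symm
    have := hg v
    rw [hF] at this
    simp [f, ← this, hN]
  rw [LinearMap.mem_ker] at hx
  simp [heq, hx]

end Vale.Agent.P181
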